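import Vale.Agent.Lib.P338.Final

open Vale.Agent.Lib.P338 in
/-- A lower bound for multiplication with lookahead `D`: for every machine there is `c > 0` with
`c * n * log₂ (n / (D + log₂ n)) ≤ T`. The work tapes may be prepared using `y`. -/
theorem Vale.Agent.Results.P338.OnlineLookahead.result {k : ℕ} (M : Machine k) :
    ∃ c : ℝ, 0 < c ∧ ∀ n : ℕ, 3 ≤ n → ∀ (D T : ℕ) (tapes : ℕ → Fin k → ℤ → M.Γ),
      MultipliesWithLookahead M tapes n D T →
      c * n * Real.logb 2 ((n : ℝ) / (D + Real.logb 2 n)) ≤ T :=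
  lower_bound_real M
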